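import Vale.Agent.P181.PL3.LBI
import Vale.Agent.P181.SZN1.Dec

set_option autoImplicit false

namespace Vale.Agent.P181.PL3

/-- **(P3)** from `LEx`. -/
theorem lbi (hLE : PL.LEx) : PL.LBI := lbi_of hLE SZN1.decBn

end Vale.Agent.P181.PL3
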