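import Vale.Agent.P181.PL3.LBS

set_option autoImplicit false

/-!
# P181, PL: **(P3)** the lower bound for a spread and heavy tail
-/

open scoped Classical

namespace Vale.Agent.P181.PL3

open Finset
open Vale.Agent.P181.T4 (ex low ex_anti ex_of_lt low_anti)
open Vale.Agent.P181.H280 (plethMult)
open Vale.Agent.P181.H463 (gt)
open Vale.Agent.P181.PL

lemma dn_eq {n j : ℕ} (hj : j ≤ n) (lam : Fin n → ℕ) : dn lam j = ∑ i, low j lam i := by
  have h1 : dn lam j = ∑ s ∈ range n, if j ≤ s then ex lam s else 0 := by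
    rw [Finset.sum_range]
    apply Finset.sum_congr rfl
    intro i _
    rw [ex_of_lt lam i.2]
  obtain ⟨d, rfl⟩ := Nat.exists_eq_add_of_le hj
  rw [h1, Finset.sum_range_add, Finset.sum_eq_zero (s := range j), zero_add]
  · have h2 : ∑ i : Fin (j + d - j), low j lam i = ∑ i ∈ range (j + d - j), ex lam (j + i) := by
      rw [Finset.sum_range]
      rfl
    rw [h2, Nat.add_sub_cancel_left]
    apply Finset.sum_congr rfl
    intro s _
    rw [if_pos (by omega)]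
  · intro s hs
    rw [mem_range] at hs
    rw [if_neg (by omega)]

/-- the gap of the first row -/
lemma gap0 {n R a b D : ℕ} {lam : Fin n → ℕ} (hsum : ∑ i, lam i = a * b)
    (hR : 1 ≤ R) (hRn : R < n) (hD : D = dn lam R) (h8 : 2 * dn lam 1 ≤ a * b) :
    ex lam 1 + D ≤ ex lam 0 + ex lam R := by
  have h1 := T4.sum_split (show 1 ≤ n by omega) lam
  rw [hsum, Finset.sum_range_one, ← dn_eq (by omega)] at h1
  have h2 : ex lam 1 + D ≤ dn lam 1 + ex lam R := by
    rw [hD]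
    rcases Nat.lt_or_ge 1 R with h | h
    · have h3 : dn lam R + ex lam 1 ≤ dn lam 1 := by
        have h4 : ex lam 1 = ∑ i : Fin n, if (i : ℕ) = 1 then lam i else 0 := by
          rw [Finset.sum_eq_single (⟨1, by omega⟩ : Fin n)]
          · rw [if_pos rfl, ex_of_lt lam (by omega)]
          · intro i _ hi
            rw [if_neg]
            intro h5
            exact hi (Fin.ext h5)
          · intro h5
            exact absurd (Finset.mem_univ _) h5
        rw [h4]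
        unfold dn
        rw [← Finset.sum_add_distrib]
        apply Finset.sum_le_sum
        intro i _
        by_cases hi : (i : ℕ) = 1
        · rw [if_neg (by omega), if_pos hi, if_pos (by omega)]
          omega
        · rw [if_neg hi]
          by_cases hi2 : R ≤ (i : ℕ)
          · rw [if_pos hi2, if_pos (by omega)]
            omega
          · rw [if_neg hi2]
            omega
      omega
    · have : R = 1 := by omega
      subst this
      omega
  omega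

/-- **(P3)** -/
theorem lbi_of (hLE : LEx) (hDec : SZ.DecBn) : LBI := by
  intro a b n J R X D lam hlam hsum hR hRn hnJ hX hRX hD hl hDa hDJ hDJ2 hDaJ hb h8
  -- `X`
  have hJ1 : 1 ≤ J := by omega
  have hlog0 : 0 ≤ Real.log J := Real.log_nonneg (by exact_mod_cast hJ1)
  have hXr : (10 : ℝ) ^ 12 ≤ X := by
    have h1 : (1 : ℝ) ≤ (1 + Real.log J) ^ 6 := one_le_pow₀ (by linarith)
    nlinarith
  have hXn : 10 ^ 12 ≤ X := by exact_mod_cast hXr
  have hX1 : 1 ≤ X := by omega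
  have hpw : ∀ i j : ℕ, i ≤ j → X ^ i ≤ X ^ j := fun i j h => Nat.pow_le_pow_right hX1 h
  -- `X ^ 80 ≤ J`
  have hJX : X ^ 80 ≤ J := by
    have h1 : D ^ 2 ≤ (J ^ 2) ^ 2 := Nat.pow_le_pow_left hDJ2 2
    have h2 : J ^ 3 * X ^ 80 ≤ J ^ 3 * J := by
      calc J ^ 3 * X ^ 80 ≤ D ^ 2 := hDJ
        _ ≤ (J ^ 2) ^ 2 := h1
        _ = J ^ 3 * J := by ring
    exact Nat.le_of_mul_le_mul_left h2 (by positivity)
  have hJD : J * X ^ 80 ≤ D := by
    have h1 : (J * X ^ 80) ^ 2 ≤ D ^ 2 := by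
      calc (J * X ^ 80) ^ 2 = J ^ 2 * (X ^ 80 * X ^ 80) := by ring
        _ ≤ J ^ 2 * (J * X ^ 80) := Nat.mul_le_mul_left _ (Nat.mul_le_mul_right _ hJX)
        _ = J ^ 3 * X ^ 80 := by ring
        _ ≤ D ^ 2 := hDJ
    exact (Nat.pow_le_pow_iff_left (by norm_num)).1 h1
  have haX : X ^ 80 ≤ a := by
    have h1 : J * X ^ 80 ≤ J * a := by
      calc J * X ^ 80 ≤ D := hJD
        _ ≤ a * J := hDaJ
        _ = J * a := mul_comm _ _
    exact Nat.le_of_mul_le_mul_left h1 hJ1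
  have hRa : R < a := by
    have h1 : X ^ 14 * X ≤ X ^ 80 := by
      calc X ^ 14 * X = X ^ 15 := by ring
        _ ≤ X ^ 80 := hpw _ _ (by norm_num)
    have h2 : X ^ 14 * 2 ≤ X ^ 14 * X := Nat.mul_le_mul_left _ (by omega)
    have h3 : 1 ≤ X ^ 14 := Nat.one_le_pow _ _ hX1
    omega
  -- `k0`
  obtain ⟨q, hq⟩ : ∃ q, q = J * X ^ 18 := ⟨_, rfl⟩
  have hqpos : 0 < q := by rw [hq]; positivity
  obtain ⟨k0, hk0⟩ : ∃ k0, k0 = D / q := ⟨_, rfl⟩
  have hkq : k0 * q ≤ D := by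
    rw [hk0]
    exact Nat.div_mul_le_self _ _
  have hk22 : X ^ 22 ≤ k0 := by
    rw [hk0, Nat.le_div_iff_mul_le hqpos]
    calc X ^ 22 * q = J * X ^ 40 := by rw [hq]; ring
      _ ≤ J * X ^ 80 := Nat.mul_le_mul_left _ (hpw _ _ (by norm_num))
      _ ≤ D := hJD
  have hk1 : 1 ≤ k0 := le_trans (Nat.one_le_pow _ _ hX1) hk22
  have hDq : D ≤ 2 * (k0 * q) := by
    have h1 : D < q * (D / q + 1) := Nat.lt_mul_div_succ D hqpos
    rw [← hk0] at h1
    have h2 : q * (k0 + 1) = k0 * q + q := by ring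
    have h3 : q ≤ k0 * q := Nat.le_mul_of_pos_left _ hk1
    omega
  have hX14 : 2 * X ^ 14 ≤ k0 := by
    refine le_trans ?_ hk22
    calc 2 * X ^ 14 ≤ X * X ^ 14 := Nat.mul_le_mul_right _ (by omega)
      _ = X ^ 15 := by ring
      _ ≤ X ^ 22 := hpw _ _ (by norm_num)
  have h2R : 2 * R ≤ k0 := by omega
  have hk2k : k0 + 2 * R ≤ 2 * k0 := by omega
  have hkX : k0 * X ^ 18 ≤ J := by
    have h1 : J * (k0 * X ^ 18) ≤ J * J := by
      calc J * (k0 * X ^ 18) = k0 * q := by rw [hq]; ring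
        _ ≤ D := hkq
        _ ≤ J ^ 2 := hDJ2
        _ = J * J := sq J
    exact Nat.le_of_mul_le_mul_left h1 hJ1
  have h2k : 2 * k0 ≤ k0 * X ^ 18 := by
    rw [mul_comm]
    apply Nat.mul_le_mul_left
    have h1 : X ^ 1 ≤ X ^ 18 := hpw _ _ (by norm_num)
    rw [pow_one] at h1
    omega
  have hkJ : k0 + 2 * R ≤ J := by omega
  have hka : k0 ≤ a := by
    have h1 : J * (k0 * X ^ 18) ≤ J * a := by
      calc J * (k0 * X ^ 18) = k0 * q := by rw [hq]; ring
        _ ≤ D := hkq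
        _ ≤ a * J := hDaJ
        _ = J * a := mul_comm _ _
    have h2 := Nat.le_of_mul_le_mul_left h1 hJ1
    omega
  -- sizes in units of `D`
  have eD : ∀ i c : ℕ, i ≤ 97 → c ≤ X → c * (X ^ i * k0) ≤ D := by
    intro i c hi hc
    refine le_trans ?_ hkq
    calc c * (X ^ i * k0) ≤ X * (X ^ i * k0) := Nat.mul_le_mul_right _ hc
      _ = X ^ (i + 1) * k0 := by ring
      _ ≤ X ^ 98 * k0 := Nat.mul_le_mul_right _ (hpw _ _ (by omega))
      _ = k0 * (X ^ 80 * X ^ 18) := by ring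
      _ ≤ k0 * (J * X ^ 18) := Nat.mul_le_mul_left _ (Nat.mul_le_mul_right _ hJX)
      _ = k0 * q := by rw [hq]
  have eA : ∀ i c : ℕ, i ≤ 39 → c ≤ X → c * (X ^ i * a) ≤ D := by
    intro i c hi hc
    calc c * (X ^ i * a) ≤ X * (X ^ i * a) := Nat.mul_le_mul_right _ hc
      _ = a * X ^ (i + 1) := by ring
      _ ≤ a * X ^ 40 := Nat.mul_le_mul_left _ (hpw _ _ (by omega))
      _ ≤ D := hDa
  have eL : ∀ i c : ℕ, i ≤ 11 → c ≤ X → c * (X ^ i * ex lam R) ≤ D := by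
    intro i c hi hc
    calc c * (X ^ i * ex lam R) ≤ X * (X ^ i * ex lam R) := Nat.mul_le_mul_right _ hc
      _ = X ^ (i + 1) * ex lam R := by ring
      _ ≤ X ^ 12 * ex lam R := Nat.mul_le_mul_right _ (hpw _ _ (by omega))
      _ ≤ D := hl
  have hDd : D = ∑ i, low R lam i := by rw [hD, dn_eq hRn.le]
  have hkR : (k0 + 2 * R) * R ≤ 2 * (X ^ 14 * k0) := by
    calc (k0 + 2 * R) * R ≤ 2 * k0 * X ^ 14 := Nat.mul_le_mul hk2k hRX
      _ = _ := by ring
  have hX14' : 1 ≤ X ^ 14 := Nat.one_le_pow _ _ hX1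
  have hkR1 : (k0 + 2 * R) * (R + 1) ≤ 4 * (X ^ 14 * k0) := by
    calc (k0 + 2 * R) * (R + 1) ≤ 2 * k0 * (2 * X ^ 14) := Nat.mul_le_mul hk2k (by omega)
      _ = _ := by ring
  -- the total
  have hM4 : R * ex lam R + 2 * a * R ^ 2 + D + (k0 + 2 * R) * (R + 1) ≤ 4 * (X ^ 2 * D) := by
    have h1 : R * ex lam R ≤ X ^ 2 * D := by
      calc R * ex lam R ≤ X ^ 14 * ex lam R := Nat.mul_le_mul_right _ hRX
        _ = X ^ 2 * (X ^ 12 * ex lam R) := by ring
        _ ≤ X ^ 2 * D := Nat.mul_le_mul_left _ hl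
    have h2 : 2 * a * R ^ 2 ≤ D := by
      calc 2 * a * R ^ 2 ≤ 2 * a * (X ^ 14) ^ 2 :=
            Nat.mul_le_mul_left _ (Nat.pow_le_pow_left hRX 2)
        _ = 2 * (X ^ 28 * a) := by ring
        _ ≤ D := eA 28 2 (by norm_num) (by omega)
    have h3 := eD 14 4 (by norm_num) (by omega)
    have h4 : D ≤ X ^ 2 * D := Nat.le_mul_of_pos_left _ (by positivity)
    omega
  have hDk : X ^ 2 * D ≤ 2 * (X ^ 20 * (k0 * J)) := by
    calc X ^ 2 * D ≤ X ^ 2 * (2 * (k0 * q)) := Nat.mul_le_mul_left _ hDq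
      _ = _ := by rw [hq]; ring
  -- reals
  have hT : (10 : ℝ) ^ 10 * (1 + Real.log J) ^ 6 ≤ X := by
    have h2 : (0 : ℝ) ≤ (1 + Real.log J) ^ 6 := by positivity
    nlinarith
  have hDa2 : (D : ℝ) + 1 ≤ Real.exp X := by
    have h1 : (D : ℝ) ≤ J * J := by
      have : D ≤ J * J := by rw [← sq]; exact hDJ2
      exact_mod_cast this
    have h2 : (J : ℝ) = Real.exp (Real.log J) := by
      rw [Real.exp_log (by exact_mod_cast hJ1)]
    have h3 : (1 : ℝ) ≤ J := by exact_mod_cast hJ1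
    have h4 : (D : ℝ) + 1 ≤ 2 * (J * J) := by nlinarith
    have h5 : (2 : ℝ) ≤ Real.exp 1 := by
      have := Real.add_one_le_exp (1 : ℝ)
      linarith
    have h6 : (2 : ℝ) * (J * J) ≤ Real.exp (1 + Real.log J + Real.log J) := by
      rw [Real.exp_add, Real.exp_add, ← h2]
      have : (0 : ℝ) ≤ (J : ℝ) * J := by positivity
      nlinarith
    refine h4.trans (h6.trans (Real.exp_le_exp.2 ?_))
    have h7 : (1 + Real.log J) ≤ (1 + Real.log J) ^ 6 := by
      calc (1 + Real.log J) = (1 + Real.log J) ^ 1 := (pow_one _).symm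
        _ ≤ _ := pow_le_pow_right₀ (by linarith) (by norm_num)
    have h8 : (2 : ℝ) * (1 + Real.log J) ≤ 10 ^ 12 * (1 + Real.log J) ^ 6 := by
      have : (0 : ℝ) ≤ 1 + Real.log J := by linarith
      nlinarith
    linarith
  have hgap0 := gap0 hsum hR hRn hD h8
  have hmain := lbs hLE hDec (G := Real.exp ((J * X ^ 16 : ℕ) : ℝ))
    (E := ((J * X ^ 16 : ℕ) : ℝ) + ((J * X ^ 15 : ℕ) : ℝ)) (T := (X : ℝ)) (k0 := k0) hlam hsum hR hRn
    hnJ hT hRa h2R hka hkJ ?_ hDd ?_ ?_ ?_ ?_ ?_ (Real.exp_pos _).le ?_ ?_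
  · rw [mul_comm]
    exact hmain
  · -- `J X ^ 12 ≤ k0 ^ 2`
    have h1 : D ^ 2 ≤ (2 * (k0 * q)) ^ 2 := Nat.pow_le_pow_left hDq 2
    have h2 : (J ^ 2 * X ^ 36) * (J * X ^ 44) ≤ (J ^ 2 * X ^ 36) * (4 * k0 ^ 2) := by
      calc (J ^ 2 * X ^ 36) * (J * X ^ 44) = J ^ 3 * X ^ 80 := by ring
        _ ≤ D ^ 2 := hDJ
        _ ≤ (2 * (k0 * q)) ^ 2 := h1
        _ = _ := by rw [hq]; ring
    have h3 : J * X ^ 44 ≤ 4 * k0 ^ 2 := Nat.le_of_mul_le_mul_left h2 (by positivity)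
    have h4 : 4 * (J * X ^ 12) ≤ J * X ^ 44 := by
      calc 4 * (J * X ^ 12) ≤ X * (J * X ^ 12) := Nat.mul_le_mul_right _ (by omega)
        _ = J * X ^ 13 := by ring
        _ ≤ J * X ^ 44 := Nat.mul_le_mul_left _ (hpw _ _ (by norm_num))
    have h5 : J * X ^ 12 ≤ k0 ^ 2 := by omega
    exact_mod_cast h5
  · -- the gap
    have h1 := eD 14 4 (by norm_num) (by omega)
    have h2 := eL 0 2 (by norm_num) (by omega)
    rw [pow_zero, one_mul] at h2
    omega
  · -- `J X ^ 6 (k0 + 2 R) ≤ D`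
    have h1 : J * X ^ 6 * (k0 + 2 * R) ≤ D := by
      refine le_trans ?_ hkq
      calc J * X ^ 6 * (k0 + 2 * R) ≤ J * X ^ 6 * (2 * k0) := Nat.mul_le_mul_left _ hk2k
        _ ≤ J * X ^ 6 * (X * k0) := Nat.mul_le_mul_left _ (Nat.mul_le_mul_right _ (by omega))
        _ = k0 * (J * X ^ 7) := by ring
        _ ≤ k0 * (J * X ^ 18) :=
          Nat.mul_le_mul_left _ (Nat.mul_le_mul_left _ (hpw _ _ (by norm_num)))
        _ = k0 * q := by rw [hq]
    exact_mod_cast h1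
  · -- spread
    have h1 : X ^ 7 * (ex lam R + (k0 + 2 * R) * R + 2 * a * R) ≤ D := by
      have e1 := eL 7 3 (by norm_num) (by omega)
      have e2 := eD 21 6 (by norm_num) (by omega)
      have e3 := eA 21 6 (by norm_num) (by omega)
      have e4 : X ^ 7 * ((k0 + 2 * R) * R) ≤ X ^ 7 * (2 * (X ^ 14 * k0)) :=
        Nat.mul_le_mul_left _ hkR
      have e5 : X ^ 7 * (2 * (X ^ 14 * k0)) = 2 * (X ^ 21 * k0) := by ring
      have e6 : X ^ 7 * (2 * a * R) ≤ X ^ 7 * (2 * a * X ^ 14) :=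
        Nat.mul_le_mul_left _ (Nat.mul_le_mul_left _ hRX)
      have e7 : X ^ 7 * (2 * a * X ^ 14) = 2 * (X ^ 21 * a) := by ring
      have e8 : X ^ 7 * (ex lam R + (k0 + 2 * R) * R + 2 * a * R) =
        X ^ 7 * ex lam R + X ^ 7 * ((k0 + 2 * R) * R) + X ^ 7 * (2 * a * R) := by ring
      omega
    exact_mod_cast h1
  · -- the total against `k0 J ^ 2`
    refine hM4.trans ?_
    calc 4 * (X ^ 2 * D) ≤ 4 * (2 * (X ^ 20 * (k0 * J))) := Nat.mul_le_mul_left _ hDk
      _ = 8 * (X ^ 20 * (k0 * J)) := by ring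
      _ ≤ X * (X ^ 20 * (k0 * J)) := Nat.mul_le_mul_right _ (by omega)
      _ = X ^ 21 * (k0 * J) := by ring
      _ ≤ X ^ 80 * (k0 * J) := Nat.mul_le_mul_right _ (hpw _ _ (by norm_num))
      _ ≤ J * (k0 * J) := Nat.mul_le_mul_right _ hJX
      _ = k0 * J ^ 2 := by ring
  · -- against `b`
    have h1 : k0 ≤ X ^ 2 * D := by
      have e1 := eD 0 1 (by norm_num) (by omega)
      rw [pow_zero, one_mul, one_mul] at e1
      have e2 : D ≤ X ^ 2 * D := Nat.le_mul_of_pos_left _ (by positivity)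
      omega
    calc (R + 1) * (2 * (R * ex lam R + 2 * a * R ^ 2 + D + (k0 + 2 * R) * (R + 1)) + k0)
        ≤ (2 * X ^ 14) * (9 * (X ^ 2 * D)) := Nat.mul_le_mul (by omega) (by omega)
      _ ≤ (2 * X ^ 14) * (9 * (2 * (X ^ 20 * (k0 * J)))) :=
          Nat.mul_le_mul_left _ (Nat.mul_le_mul_left _ hDk)
      _ = 18 * (X ^ 34 * (2 * (J * k0))) := by ring
      _ ≤ X * (X ^ 34 * (2 * (J * k0))) := Nat.mul_le_mul_right _ (by omega)
      _ = X ^ 35 * (2 * (J * k0)) := by ring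
      _ ≤ X ^ 60 * (2 * (J * k0)) := Nat.mul_le_mul_right _ (hpw _ _ (by norm_num))
      _ = 2 * ((J * X ^ 60) * k0) := by ring
      _ ≤ 2 * (b * k0) := Nat.mul_le_mul_left _ (Nat.mul_le_mul_right _ hb)
  · -- the heads
    rw [Real.exp_add]
    apply mul_le_mul_of_nonneg_left _ (Real.exp_pos _).le
    have h1 : ((D : ℝ) + 1) ^ (J * R) ≤ (Real.exp X) ^ (J * R) := by
      gcongr
    refine h1.trans ?_
    rw [← Real.exp_nat_mul, Real.exp_le_exp]
    have h2 : J * R * X ≤ J * X ^ 15 := by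
      calc J * R * X ≤ J * X ^ 14 * X := Nat.mul_le_mul_right _ (Nat.mul_le_mul_left _ hRX)
        _ = _ := by ring
    exact_mod_cast h2
  · -- the gain
    have h1 : (J * X ^ 16 + J * X ^ 15) * (k0 + 2 * R) ≤ 2 * D := by
      calc (J * X ^ 16 + J * X ^ 15) * (k0 + 2 * R)
          ≤ (J * X ^ 16 + J * X ^ 16) * (2 * k0) :=
            Nat.mul_le_mul (Nat.add_le_add_left
              (Nat.mul_le_mul_left _ (hpw _ _ (by norm_num))) _) hk2k
        _ = 2 * (2 * (k0 * (J * X ^ 16))) := by ring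
        _ ≤ 2 * (X * (k0 * (J * X ^ 16))) :=
            Nat.mul_le_mul_left _ (Nat.mul_le_mul_right _ (by omega))
        _ = 2 * (k0 * (J * X ^ 17)) := by ring
        _ ≤ 2 * (k0 * (J * X ^ 18)) := Nat.mul_le_mul_left _ (Nat.mul_le_mul_left _
            (Nat.mul_le_mul_left _ (hpw _ _ (by norm_num))))
        _ = 2 * (k0 * q) := by rw [hq]
        _ ≤ 2 * D := Nat.mul_le_mul_left _ hkq
    exact_mod_cast h1

end Vale.Agent.P181.PL3
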