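import Vale.Agent.P181.PL.Defs
import Vale.Agent.P181.H463.CutRev

set_option autoImplicit false

/-!
# P181, PL: lower bound for a spread tail, tableaux with `J` letters
-/

open scoped Classical

namespace Vale.Agent.P181.PL3

open Finset
open Vale.Agent.P181.T4 (ex low ex_anti ex_of_lt low_anti)
open Vale.Agent.P181.H280 (plethMult)
open Vale.Agent.P181.H463 (gt)

/-- the gaps of `DecBn` -/
def eg (k0 R : ℕ) (j : ℕ) : ℕ := if j = 1 then (k0 + 2 * R) * R else 0

lemma eg_sum {k0 R : ℕ} (hR : 1 ≤ R) : ∑ j ∈ Finset.Icc 1 R, j * eg k0 R j = (k0 + 2 * R) * R := by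
  rw [Finset.sum_eq_single 1]
  · simp [eg]
  · intro j _ hj
    simp [eg, hj]
  · intro h
    exact absurd (Finset.mem_Icc.2 ⟨le_refl 1, hR⟩) h

/-- the rows of `mu` -/
lemma mu_rows {n R k0 a : ℕ} {lam mu : Fin n → ℕ}
    (hlow : ∀ s, R ≤ s → ex mu s = ex lam s)
    (hup : ∀ j, 1 ≤ j → j ≤ R → ex mu (j - 1) ≤ ex mu j + eg k0 R j + 2 * a) :
    ∀ d s, s + d = R → 1 ≤ s → ex mu s ≤ ex lam R + 2 * a * d := by
  intro d
  induction d with
  | zero =>
    intro s hs _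
    have : s = R := by omega
    subst this
    rw [hlow _ le_rfl]
    simp
  | succ d ih =>
    intro s hs hs1
    have h1 := ih (s + 1) (by omega) (by omega)
    have h2 := hup (s + 1) (by omega) (by omega)
    have h3 : eg k0 R (s + 1) = 0 := by
      unfold eg
      rw [if_neg (by omega)]
    rw [h3, Nat.add_sub_cancel] at h2
    have h4 : 2 * a * (d + 1) = 2 * a * d + 2 * a := by ring
    omega

/-- the lower bound for a spread tail, the numbers as hypotheses. -/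
theorem lbs (hX : PL.LEx) (hDec : SZ.DecBn) {a b n J R k0 D : ℕ} {T G E : ℝ} {lam : Fin n → ℕ}
    (hlam : Antitone lam) (hsum : ∑ i, lam i = a * b) (hR : 1 ≤ R) (hRn : R < n) (hnJ : n ≤ J)
    (hT : 10 ^ 10 * (1 + Real.log J) ^ 6 ≤ T) (hRa : R < a)
    (hk : 2 * R ≤ k0) (hka : k0 ≤ a) (hkJ : k0 + 2 * R ≤ J)
    (hk2 : (J : ℝ) * T ^ 12 ≤ (k0 : ℝ) ^ 2)
    (hDd : D = ∑ i, low R lam i)
    (hgap : (k0 + 2 * R) * R + ex lam 1 ≤ ex lam 0)
    (hD : (J : ℝ) * T ^ 6 * (k0 + 2 * R) ≤ D)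
    (hsp : T ^ 7 * (ex lam R + (k0 + 2 * R) * R + 2 * a * R) ≤ D)
    (hM : R * ex lam R + 2 * a * R ^ 2 + D + (k0 + 2 * R) * (R + 1) ≤ k0 * J ^ 2)
    (hMb : (R + 1) * (2 * (R * ex lam R + 2 * a * R ^ 2 + D +
      (k0 + 2 * R) * (R + 1)) + k0) ≤ 2 * (b * k0))
    (hG0 : 0 ≤ G) (hG : G * ((D : ℝ) + 1) ^ (J * R) ≤ Real.exp E)
    (hE : E * (k0 + 2 * R) ≤ 2 * D) :
    G * gt (n - R) J (low R lam) ≤ plethMult b a n lam := by
  obtain ⟨M, hMd⟩ : ∃ M, M = R * ex lam R + 2 * a * R ^ 2 + D + (k0 + 2 * R) * (R + 1) := ⟨_, rfl⟩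
  rw [← hMd] at hM hMb
  have hk0 : 0 < k0 := by omega
  obtain ⟨X, hXd⟩ : ∃ X, X = 2 * M / k0 + 1 := ⟨_, rfl⟩
  have hX1 : 2 * M ≤ k0 * X := by
    rw [hXd]
    exact (Nat.lt_mul_div_succ (2 * M) hk0).le
  have hX2 : k0 * X ≤ 2 * M + k0 := by
    rw [hXd, mul_add, mul_one]
    exact Nat.add_le_add_right (Nat.mul_div_le _ _) _
  have hMR : (k0 + 2 * R) * R + (k0 + 2 * R) ≤ M := by
    have : (k0 + 2 * R) * (R + 1) = (k0 + 2 * R) * R + (k0 + 2 * R) := by ring
    omega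
  have hRX : R ≤ X := by
    have h1 : k0 * R ≤ (k0 + 2 * R) * R := Nat.mul_le_mul_right _ (by omega)
    exact Nat.le_of_mul_le_mul_left (show k0 * R ≤ k0 * X by omega) hk0
  have hXb : (R + 1) * X ≤ 2 * b := by
    have h1 : (R + 1) * (k0 * X) ≤ (R + 1) * (2 * M + k0) := Nat.mul_le_mul_left _ hX2
    have h2 : k0 * ((R + 1) * X) ≤ k0 * (2 * b) := by
      calc k0 * ((R + 1) * X) = (R + 1) * (k0 * X) := by ring
        _ ≤ _ := h1
        _ ≤ 2 * (b * k0) := hMb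
        _ = k0 * (2 * b) := by ring
    exact Nat.le_of_mul_le_mul_left h2 hk0
  obtain ⟨B, k, mu, hmu, hsmu, hk1, hk3, hka', hlow, hgp, hpl⟩ :=
    hDec a b n R X k0 (eg k0 R) lam hlam hsum hR hRn hRa hk hka hRX
      (fun j hj1 hj2 => by
        unfold eg
        by_cases h : j = 1
        · subst h
          rw [if_pos rfl]
          exact hgap
        · rw [if_neg h, zero_add]
          exact ex_anti hlam (by omega))
      (by
        rw [eg_sum hR, ← hDd]
        have h1 : R * ex lam R + 2 * a * R ^ 2 + D + (k0 + 2 * R) * R + (k0 + 2 * R) = M := by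
          rw [hMd]
          ring
        rw [h1]
        exact hX1)
      hXb (by rw [eg_sum hR])
  have hrows := mu_rows (k0 := k0) (a := a) hlow fun j h1 h2 => (hgp j h1 h2).2
  have hkpos : 0 < k := by omega
  -- row zero
  have h0 : ex mu 0 ≤ ex lam R + (k0 + 2 * R) * R + 2 * a * R := by
    have h1 := (hgp 1 le_rfl hR).2
    have h2 := hrows (R - 1) 1 (by omega) le_rfl
    have h3 : eg k0 R 1 = (k0 + 2 * R) * R := if_pos rfl
    rw [h3, Nat.sub_self] at h1
    have h4 : 2 * a * R = 2 * a * (R - 1) + 2 * a := by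
      obtain ⟨r, rfl⟩ : ∃ r, R = r + 1 := ⟨R - 1, by omega⟩
      rw [Nat.add_sub_cancel]
      ring
    omega
  -- the tail
  have hlowmu : low R mu = low R lam := by
    funext i
    exact hlow _ (Nat.le_add_right _ _)
  have hsplit : ∑ s ∈ range R, ex mu s + D = k * B := by
    have h1 := T4.sum_split (show R ≤ n by omega) mu
    rw [hlowmu, ← hDd, hsmu] at h1
    exact h1.symm
  have hDk : D ≤ k * B := by omega
  have hkM : k * B ≤ M := by
    have h1 : ∀ s ∈ range R, ex mu s ≤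
        (ex lam R + 2 * a * R) + (if s = 0 then (k0 + 2 * R) * R else 0) := by
      intro s hs
      rw [mem_range] at hs
      by_cases h : s = 0
      · subst h
        rw [if_pos rfl]
        omega
      · rw [if_neg h, add_zero]
        have h2 := hrows (R - s) s (by omega) (by omega)
        have h3 : 2 * a * (R - s) ≤ 2 * a * R := Nat.mul_le_mul_left _ (Nat.sub_le _ _)
        omega
    have h2 : ∑ s ∈ range R, ex mu s ≤ R * (ex lam R + 2 * a * R) + (k0 + 2 * R) * R := by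
      refine (Finset.sum_le_sum h1).trans ?_
      rw [Finset.sum_add_distrib, Finset.sum_const, card_range, smul_eq_mul,
        Finset.sum_ite_eq' (range R) 0, if_pos (mem_range.2 (by omega))]
    have h3 : R * (ex lam R + 2 * a * R) = R * ex lam R + 2 * a * R ^ 2 := by ring
    have h4 : (k0 + 2 * R) * (R + 1) = (k0 + 2 * R) * R + (k0 + 2 * R) := by ring
    omega
  -- numbers
  have hBJ : B ≤ J ^ 2 := by
    have h1 : k0 * J ^ 2 ≤ k * J ^ 2 := Nat.mul_le_mul_right _ hk1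
    exact Nat.le_of_mul_le_mul_left (show k * B ≤ k * J ^ 2 by omega) hkpos
  have hJ1 : 1 ≤ J := by omega
  have hlogJ : 0 ≤ Real.log J := Real.log_nonneg (by exact_mod_cast hJ1)
  have hT1 : 1 ≤ T := by
    have h1 : (1 : ℝ) ≤ (1 + Real.log J) ^ 6 := one_le_pow₀ (by linarith)
    linarith
  have hT0 : 0 < T := by linarith
  have hkr : (k : ℝ) ≤ k0 + 2 * R := by exact_mod_cast hk3
  have hkpr : (0 : ℝ) < k := by exact_mod_cast hkpos
  have hDkr : (D : ℝ) ≤ k * B := by exact_mod_cast hDk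
  have hB6 : (J : ℝ) * T ^ 6 ≤ B := by
    have h1 : (k : ℝ) * ((J : ℝ) * T ^ 6) ≤ k * B := by
      calc (k : ℝ) * ((J : ℝ) * T ^ 6) ≤ (k0 + 2 * R) * ((J : ℝ) * T ^ 6) := by gcongr
        _ = (J : ℝ) * T ^ 6 * (k0 + 2 * R) := by ring
        _ ≤ _ := hD.trans hDkr
    exact le_of_mul_le_mul_left h1 hkpr
  have hEB : E ≤ 2 * B := by
    by_contra hcon
    push Not at hcon
    have hB0 : (0 : ℝ) ≤ B := Nat.cast_nonneg B
    have h1 : (k : ℝ) * (2 * B) < k * E := mul_lt_mul_of_pos_left hcon hkpr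
    have h2 : (k : ℝ) * E ≤ (k0 + 2 * R) * E := mul_le_mul_of_nonneg_right hkr (by linarith)
    linarith
  have hk0k : (k0 : ℝ) ≤ k := by exact_mod_cast hk1
  have h0r : T ^ 7 * (ex mu 0 : ℝ) ≤ (k : ℝ) * B := by
    have h1 : (ex mu 0 : ℝ) ≤ ex lam R + (k0 + 2 * R) * R + 2 * a * R := by exact_mod_cast h0
    exact ((mul_le_mul_of_nonneg_left h1 (by positivity)).trans hsp).trans hDkr
  have hPg := hX J k B n mu T hJ1 hT hnJ (by omega) (hk2.trans (by gcongr)) hB6 hBJ hmu hsmu h0r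
  -- the cut
  have hcut := H463.cut_rev (a := J) (n := n) (R := R) (lam := mu) hRn.le hnJ hmu
  rw [hlowmu] at hcut
  have hmu0 : ex mu 0 ≤ D := by
    have h1 : (1 : ℝ) * (ex mu 0 : ℝ) ≤ T ^ 7 * (ex mu 0 : ℝ) := by
      gcongr
      exact one_le_pow₀ hT1
    have h3 : (ex mu 0 : ℝ) ≤ ex lam R + (k0 + 2 * R) * R + 2 * a * R := by exact_mod_cast h0
    have h2 : (ex mu 0 : ℝ) ≤ D := by
      rw [one_mul] at h1
      exact h1.trans ((mul_le_mul_of_nonneg_left h3 (by positivity)).trans hsp)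
    exact_mod_cast h2
  have h1 : (gt (n - R) J (low R lam) : ℝ) ≤ ((D : ℝ) + 1) ^ (J * R) * (gt n J mu : ℝ) := by
    have h2 : gt (n - R) J (low R lam) ≤ (D + 1) ^ (J * R) * gt n J mu :=
      hcut.trans (Nat.mul_le_mul_right _ (Nat.pow_le_pow_left (by omega) _))
    exact_mod_cast h2
  calc G * (gt (n - R) J (low R lam) : ℝ)
      ≤ G * (((D : ℝ) + 1) ^ (J * R) * (gt n J mu : ℝ)) := by gcongr
    _ = (G * ((D : ℝ) + 1) ^ (J * R)) * (gt n J mu : ℝ) := by ring
    _ ≤ Real.exp E * (gt n J mu : ℝ) := by gcongr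
    _ ≤ Real.exp (2 * B) * (gt n J mu : ℝ) := by gcongr
    _ = (gt n J mu : ℝ) * Real.exp (2 * B) := by ring
    _ ≤ (plethMult B k n mu : ℝ) := hPg
    _ ≤ (plethMult b a n lam : ℝ) := by exact_mod_cast hpl

end Vale.Agent.P181.PL3
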